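import Vale.Agent.P241.Sp.Main

open Vale.Agent.P241.F

theorem Vale.Agent.Results.P241.AllFiniteGroups.result (p : ℕ) [Fact p.Prime] (K : ℕ → Homology)
    (T : ℕ → Tel p) (B : ℕ → FiniteGrp → Homology)
    (h₁ : ∀ A : FiniteGrp, IsPGroup p A → IsMulCommutative A → ∀ n r,
      Smith (K (n + r)) (K n) (⊥ : Subgroup A) ↔ Group.rank A ≤ r)
    (h₂ : ∀ t V (X : GCx V), X.IsFin → (K (t + 1)).Acyclic X.toBSS → FixAcyclic (B t V) X ⊤)
    (h₃ : ∀ t V (Y : BSS), ¬ (T t).Dead V → (B t V).Acyclic Y → (K 0).Acyclic Y)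
    (h₄ : ∀ t V (Y : BSS), Y.IsFin → ¬ (B t V).Acyclic Y → ∃ j, ¬ (K j).Acyclic Y ∧
      ∀ A : FiniteGrp, IsPGroup p A → IsMulCommutative A → Group.rank A ≤ j →
        ¬ (T t).Dead (.of (V × A)))
    (h₅ : ∀ W : FiniteGrp, IsPGroup p W → ∀ (S : GCx W) r, S.IsFin →
      (∀ V : Subgroup W, V ≠ ⊥ → ∀ t < r, FixAcyclic (B t (.of V)) S V) → Attachable K r S)
    (G : FiniteGrp) :
    (IsPGroup p G → ∀ (H : Subgroup G) (n r : ℕ), Smith (K (n + r)) (K n) H ↔ ell H ≤ r) ∧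
    (∀ (H L : Subgroup G) (m n : ℕ), IsPGroup p L ∨ PLocal p K →
      (Forces (K m) (K n) H L ↔
        ∃ g s, n + s ≤ m ∧ PChain p (H.map (MulAut.conj g).toMonoidHom) L s)) ∧
    (∀ X : GCx G, X.IsFin → ∃ τ, IsType K X τ) ∧
    (IsPGroup p G ∨ PLocal p K → ∀ τ : Subgroup G → ℕ∞,
      (∃ X : GCx G, X.IsFin ∧ IsType K X τ) ↔
        ∀ H L g s, PChain p (H.map (MulAut.conj g).toMonoidHom) L s → τ H ≤ τ L + s) := by
  have halive : ∀ t, ∀ A : FiniteGrp, IsPGroup p A → ¬ (T t).Dead A →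
      Smith (K (t + 1)) (K 0) (⊥ : Subgroup A) := by
    intro t A _ hA X hX h
    obtain ⟨Y, i, _, hi⟩ := exists_isFixF X hX ⊤
    rw [fixAcyclic_iffF _ hi]
    exact h₃ t A Y hA ((fixAcyclic_iffF _ hi).1 (h₂ t A X hX ((fixAcyclic_bot _ X).1 h)))
  exact ⟨fun hG H n r => main p K T B h₁ h₂ h₃ h₄ h₅ G hG H n r,
    forces_iff h₁ halive h₄ h₅ G, exists_isType h₁, type_iff h₁ halive h₄ h₅ G⟩
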