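import Vale.Agent.P241.H140.Union

open Vale.Agent.P241 Vale.Agent.P241.F Vale.Agent.P241.H140

theorem Vale.Agent.Results.P241.SmithLossAndTypes.result (p : ℕ) [Fact p.Prime]
    (K : ℕ → F.Homology) :
    (∀ (L G : FiniteGrp) (φ : L →* G) (H : Subgroup G) (n : ℕ),
      F.loss K n (H.comap φ) ≤ F.loss K n H) ∧
    ((∀ A : FiniteGrp, IsPGroup p A → IsMulCommutative A → ∀ n,
        F.loss K n (⊥ : Subgroup A) = Group.rank A) →
      (∀ n, (∀ G : FiniteGrp, IsPGroup p G → ∀ H : Subgroup G, F.loss K n H = ell H) →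
        ∀ G : FiniteGrp, IsPGroup p G → ∀ H : Subgroup G, F.loss K (n + 1) H = ell H) ∧
      (∀ G : FiniteGrp, IsPGroup p G → ∀ (H : Subgroup G) (n : ℕ),
        F.loss K n H ≤ ell H ∧
        (∀ (L V : FiniteGrp.{0}) (φ : L →* G) (ψ : L →* V), IsPGroup p V → IsMulCommutative V →
          Function.Surjective ψ → (∀ x, φ x ∈ H → ψ x = 1) →
          Group.rank V ≤ F.loss K n H ∧
            (H.index = p ^ Group.rank V →
              F.loss K n H = Group.rank V ∧ ell H = Group.rank V)) ∧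
        (H.Normal → (∀ (Q : FiniteGrp) (f : G →* Q), Function.Surjective f →
          Nat.card Q = p ^ 3 → (∀ x : Q, x ^ p = 1) →
            (∀ x y : Q, x * y = y * x) ∨ 3 ≤ F.loss K n (⊥ : Subgroup Q)) →
          (min 3 (ell H) : ℕ) ≤ F.loss K n H)) ∧
      (∀ (G : FiniteGrp) (X : F.GCx G), X.IsFin → (∃ θ, HasType p K X θ) ∧
        ∀ θ, HasType p K X θ → Compatible p θ) ∧
      ∀ (T : ℕ → Tel p) (B : ℕ → FiniteGrp → F.Homology),
        (∀ t V (X : F.GCx V), X.IsFin → (K (t + 1)).Acyclic X.toBSS → FixAcyclic (B t V) X ⊤) →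
        (∀ t V (Y : F.BSS), ¬ (T t).Dead V → (B t V).Acyclic Y → (K 0).Acyclic Y) →
        (∀ t V (Y : F.BSS), Y.IsFin → ¬ (B t V).Acyclic Y → ∃ j, ¬ (K j).Acyclic Y ∧
          ∀ A : FiniteGrp, IsPGroup p A → IsMulCommutative A → Group.rank A ≤ j →
            ¬ (T t).Dead (.of (V × A))) →
        (∀ W : FiniteGrp, IsPGroup p W → ∀ (S : F.GCx W) r, S.IsFin →
          (∀ V : Subgroup W, V ≠ ⊥ → ∀ t < r, FixAcyclic (B t (.of V)) S V) →
            Attachable K r S) →
        ∀ G : FiniteGrp,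
          (IsPGroup p G → ∀ (H : Subgroup G) (n : ℕ), F.loss K n H = ell H) ∧
          (∀ θ : Subgroup G → ℕ∞, Compatible p θ →
            ∃ X : F.GCx G, X.IsFin ∧ HasType p K X θ) ∧
          ∀ A C : Subgroup G, IsPGroup p C → ∀ m n : ℕ,
            (∀ X : F.GCx G, X.IsFin → FixAcyclic (K m) X A → FixAcyclic (K n) X C) ↔
              ∃ g : G, cong g A ≤ C ∧ n + ell ((cong g A).subgroupOf C) ≤ m) := by
  refine ⟨fun L G φ H n => ?_, fun h => ⟨fun n hn G hG H => ?_, fun G hG H n => ⟨?_, ?_, ?_⟩,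
    fun G X hX => ⟨?_, fun θ hθ => ?_⟩, ?_⟩⟩
  · rw [← loss_toL, ← loss_toL]
    exact Lite.loss_comap_le φ H n
  · have hab := AbLoss.toL h
    have hcyc := Lite.cyclic_of_abelian hab
    have h1 : Lite.Conj p (fun n => (K n).toL) n := by
      intro G _ _ hG H
      exact (loss_toL K n (G := .of G) H).trans ((hn (.of G) hG H).trans
        (congrArg _ (cycLen_eq_ell (G := G) H).symm))
    have h2 := h1.succ hcyc G hG H
    rw [cycLen_eq_ell] at h2
    exact (loss_toL K (n + 1) H).symm.trans h2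
  · have hab := AbLoss.toL h
    have h2 := Lite.loss_le_cycLen (Lite.cyclic_of_abelian hab) hG H n
    rw [cycLen_eq_ell] at h2
    exact (loss_toL K n H).symm.le.trans h2
  · intro L V φ ψ hV hc hψ hx
    have hab := AbLoss.toL h
    have h1 := rank_le_loss' (G := G) (L := L) (V := V) (H := H) hab n hV hc φ ψ hψ hx
    rw [loss_toL] at h1
    refine ⟨h1, fun hi => ?_⟩
    have h2 := loss_eq' (G := G) (L := L) (V := V) (H := H) hab hG n hV hc φ ψ hψ hx hi
    rw [loss_toL, cycLen_eq_ell] at h2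
    exact ⟨h2.1.trans (congrArg _ h2.2), h2.2⟩
  · intro hH hQ
    have hab := AbLoss.toL h
    have h2 := Lite.min_le_loss hab hG H n (fun Q _ _ f hf hcard hexp => by
      rcases hQ (.of Q) f hf hcard hexp with h3 | h3
      · exact Or.inl h3
      · exact Or.inr (h3.trans (loss_toL K n (G := .of Q) ⊥).symm.le))
    rw [loss_toL, cycLen_eq_ell] at h2
    exact h2
  · obtain ⟨θ, hθ⟩ := exists_hasType (AbLoss.smith h) hX
    exact ⟨θ, fun A _ j => hθ A j⟩
  · exact compatible_of_hasType (AbLoss.smith h) hX hθ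
  · intro T B h₂ h₃ h₄ h₅ G
    have h₁ := AbLoss.smith h
    have halive : ∀ t, ∀ A : FiniteGrp.{0}, IsPGroup p A → ¬ (T t).Dead A →
        F.Smith (K (t + 1)) (K 0) (⊥ : Subgroup A) := by
      intro t A _ hA X hX h
      obtain ⟨Y, i, _, hi⟩ := exists_isFixF X hX ⊤
      rw [fixAcyclic_iffF _ hi]
      exact h₃ t A Y hA ((fixAcyclic_iffF _ hi).1 (h₂ t A X hX ((fixAcyclic_bot _ X).1 h)))
    refine ⟨fun hG H n => loss_eq_of_iff fun r => main p K T B h₁ h₂ h₃ h₄ h₅ G hG H n r,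
      fun θ h => ?_, fun A C hC m n => implication_iff h₁ halive h₄ h₅ G A C hC m n⟩
    obtain ⟨X, hX, h1, _⟩ := exists_of_compatible h₁ halive h₄ h₅ G h
    exact ⟨X, hX, h1⟩
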