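import Vale.Agent.P241.H140.Gen

open Vale.Agent.P241.F Vale.Agent.P241.H140

theorem Vale.Agent.Results.P241.TypeFunctions.result (p : ℕ) [Fact p.Prime] (K : ℕ → Homology)
    (T : ℕ → Tel p) (B : ℕ → FiniteGrp → Homology)
    (h₁ : ∀ A : FiniteGrp, IsPGroup p A → IsMulCommutative A → ∀ n r,
      Smith (K (n + r)) (K n) (⊥ : Subgroup A) ↔ Group.rank A ≤ r)
    (h₂ : ∀ t V (X : GCx V), X.IsFin → (K (t + 1)).Acyclic X.toBSS → FixAcyclic (B t V) X ⊤)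
    (h₃ : ∀ t V (Y : BSS), ¬ (T t).Dead V → (B t V).Acyclic Y → (K 0).Acyclic Y)
    (h₄ : ∀ t V (Y : BSS), Y.IsFin → ¬ (B t V).Acyclic Y → ∃ j, ¬ (K j).Acyclic Y ∧
      ∀ A : FiniteGrp, IsPGroup p A → IsMulCommutative A → Group.rank A ≤ j →
        ¬ (T t).Dead (.of (V × A)))
    (h₅ : ∀ W : FiniteGrp, IsPGroup p W → ∀ (S : GCx W) r, S.IsFin →
      (∀ V : Subgroup W, V ≠ ⊥ → ∀ t < r, FixAcyclic (B t (.of V)) S V) → Attachable K r S)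
    (G : FiniteGrp) :
    (IsPGroup p G → ∀ (H : Subgroup G) (n r : ℕ), Smith (K (n + r)) (K n) H ↔ ell H ≤ r) ∧
    (∀ X : GCx G, X.IsFin → ∃ θ, HasType p K X θ) ∧
    (∀ θ : Subgroup G → ℕ∞, (∃ X : GCx G, X.IsFin ∧ HasType p K X θ) ↔ Compatible p θ) ∧
    ∀ A C : Subgroup G, IsPGroup p C → ∀ m n : ℕ,
      (∀ X : GCx G, X.IsFin → FixAcyclic (K m) X A → FixAcyclic (K n) X C) ↔
        ∃ g : G, cong g A ≤ C ∧ n + ell ((cong g A).subgroupOf C) ≤ m := by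
  have halive : ∀ t, ∀ A : FiniteGrp.{0}, IsPGroup p A → ¬ (T t).Dead A →
      Smith (K (t + 1)) (K 0) (⊥ : Subgroup A) := by
    intro t A _ hA X hX h
    obtain ⟨Y, i, _, hi⟩ := exists_isFixF X hX ⊤
    rw [fixAcyclic_iffF _ hi]
    exact h₃ t A Y hA ((fixAcyclic_iffF _ hi).1 (h₂ t A X hX ((fixAcyclic_bot _ X).1 h)))
  refine ⟨fun hG H n r => main p K T B h₁ h₂ h₃ h₄ h₅ G hG H n r, fun X hX => ?_,
    fun θ => ⟨?_, fun h => ?_⟩, fun A C hC m n => implication_iff h₁ halive h₄ h₅ G A C hC m n⟩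
  · obtain ⟨θ, hθ⟩ := exists_hasType h₁ hX
    exact ⟨θ, fun A _ j => hθ A j⟩
  · rintro ⟨X, hX, h⟩
    exact compatible_of_hasType h₁ hX h
  · obtain ⟨X, hX, h1, _⟩ := exists_of_compatible h₁ halive h₄ h₅ G h
    exact ⟨X, hX, h1⟩
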